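import Mathlib

namespace Vale.Agent.Results.P355.QuadraticFieldObstruction

open Complex

/-- The imaginary quadratic field `ℚ(√-D)`, as a set of complex numbers. -/
def QD (D : ℕ) : Set ℂ :=
  {z | ∃ a b : ℚ, z = (a : ℂ) + (b : ℂ) * ((Real.sqrt D : ℝ) : ℂ) * Complex.I}

/-- A vector of `ℂ^6` is projectively rational over `ℚ(√-D)` if it is a complex multiple of a
vector all of whose coordinates lie in `ℚ(√-D)`. -/
def ProjRat (D : ℕ) (x : EuclideanSpace ℂ (Fin 6)) : Prop :=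
  ∃ (c : ℂ) (u : Fin 6 → ℂ), (∀ k, u k ∈ QD D) ∧ ∀ k, x k = c * u k

/-- Two orthonormal bases of `ℂ^6` are mutually unbiased. -/
def Unbiased (B C : OrthonormalBasis (Fin 6) ℂ (EuclideanSpace ℂ (Fin 6))) : Prop :=
  ∀ i j, ‖(inner ℂ (B i) (C j) : ℂ)‖ ^ 2 = 1 / 6

/-! ### Arithmetic -/

theorem dvdA (e : ℤ) (x y t : ℤ) (h : x ^ 2 + (3 * e + 1) * y ^ 2 = 6 * t ^ 2) :
    3 ∣ x ∧ 3 ∣ y ∧ 3 ∣ t := by
  obtain ⟨a, r, hr, rfl⟩ : ∃ a r : ℤ, (r = 0 ∨ r = 1 ∨ r = 2) ∧ x = 3 * a + r :=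
    ⟨x / 3, x % 3, by omega, by omega⟩
  obtain ⟨b, s, hs, rfl⟩ : ∃ b s : ℤ, (s = 0 ∨ s = 1 ∨ s = 2) ∧ y = 3 * b + s :=
    ⟨y / 3, y % 3, by omega, by omega⟩
  obtain ⟨c, q, hq, rfl⟩ : ∃ c q : ℤ, (q = 0 ∨ q = 1 ∨ q = 2) ∧ t = 3 * c + q :=
    ⟨t / 3, t % 3, by omega, by omega⟩
  rcases hr with rfl | rfl | rfl <;> rcases hs with rfl | rfl | rfl <;>
    rcases hq with rfl | rfl | rfl <;> ring_nf at h <;>
    first
      | (exfalso; omega)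
      | (refine ⟨⟨a, by ring⟩, ⟨b, by ring⟩, ⟨c, by ring⟩⟩)

theorem dvdB (e : ℤ) (x y t : ℤ) (h : x ^ 2 + (9 * e + 3) * y ^ 2 = 6 * t ^ 2) :
    3 ∣ x ∧ 3 ∣ y ∧ 3 ∣ t := by
  obtain ⟨a, r, hr, rfl⟩ : ∃ a r : ℤ, (r = 0 ∨ r = 1 ∨ r = 2) ∧ x = 3 * a + r :=
    ⟨x / 3, x % 3, by omega, by omega⟩
  obtain ⟨b, s, hs, rfl⟩ : ∃ b s : ℤ, (s = 0 ∨ s = 1 ∨ s = 2) ∧ y = 3 * b + s :=
    ⟨y / 3, y % 3, by omega, by omega⟩
  obtain ⟨c, q, hq, rfl⟩ : ∃ c q : ℤ, (q = 0 ∨ q = 1 ∨ q = 2) ∧ t = 3 * c + q :=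
    ⟨t / 3, t % 3, by omega, by omega⟩
  rcases hr with rfl | rfl | rfl <;> rcases hs with rfl | rfl | rfl <;>
    rcases hq with rfl | rfl | rfl <;> ring_nf at h <;>
    first
      | (exfalso; omega)
      | (refine ⟨⟨a, by ring⟩, ⟨b, by ring⟩, ⟨c, by ring⟩⟩)

theorem dvdC (e : ℤ) (x y t : ℤ) (h : x ^ 2 + (8 * e + 3) * y ^ 2 = 6 * t ^ 2) :
    2 ∣ x ∧ 2 ∣ y ∧ 2 ∣ t := by
  obtain ⟨a, r, hr, rfl⟩ : ∃ a r : ℤ, (r = 0 ∨ r = 1 ∨ r = 2 ∨ r = 3) ∧ x = 4 * a + r :=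
    ⟨x / 4, x % 4, by omega, by omega⟩
  obtain ⟨b, s, hs, rfl⟩ : ∃ b s : ℤ, (s = 0 ∨ s = 1 ∨ s = 2 ∨ s = 3) ∧ y = 4 * b + s :=
    ⟨y / 4, y % 4, by omega, by omega⟩
  obtain ⟨c, q, hq, rfl⟩ : ∃ c q : ℤ, (q = 0 ∨ q = 1 ∨ q = 2 ∨ q = 3) ∧ t = 4 * c + q :=
    ⟨t / 4, t % 4, by omega, by omega⟩
  rcases hr with rfl | rfl | rfl | rfl <;> rcases hs with rfl | rfl | rfl | rfl <;>
    rcases hq with rfl | rfl | rfl | rfl <;> ring_nf at h <;>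
    first
      | (exfalso; omega)
      | (refine ⟨?_, ?_, ?_⟩ <;> omega)

theorem exists_descent_prime (D : ℕ) (hD : D % 3 = 1 ∨ D % 9 = 3 ∨ D % 8 = 3) :
    ∃ p : ℤ, 1 < p ∧ ∀ x y t : ℤ, x ^ 2 + (D : ℤ) * y ^ 2 = 6 * t ^ 2 →
      p ∣ x ∧ p ∣ y ∧ p ∣ t := by
  rcases hD with h | h | h
  · refine ⟨3, by norm_num, fun x y t hxy => dvdA ((D : ℤ) / 3) x y t ?_⟩
    have : 3 * ((D : ℤ) / 3) + 1 = D := by omega
    rw [this]; exact hxy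
  · refine ⟨3, by norm_num, fun x y t hxy => dvdB ((D : ℤ) / 9) x y t ?_⟩
    have : 9 * ((D : ℤ) / 9) + 3 = D := by omega
    rw [this]; exact hxy
  · refine ⟨2, by norm_num, fun x y t hxy => dvdC ((D : ℤ) / 8) x y t ?_⟩
    have : 8 * ((D : ℤ) / 8) + 3 = D := by omega
    rw [this]; exact hxy

theorem int_descent (D : ℕ) (hD : D % 3 = 1 ∨ D % 9 = 3 ∨ D % 8 = 3) :
    ∀ n : ℕ, ∀ x y t : ℤ, t.natAbs = n → x ^ 2 + (D : ℤ) * y ^ 2 = 6 * t ^ 2 → t = 0 := by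
  obtain ⟨p, hp, hdiv⟩ := exists_descent_prime D hD
  intro n
  induction n using Nat.strong_induction_on with
  | _ n ih =>
    intro x y t hn h
    by_contra ht
    obtain ⟨⟨a, rfl⟩, ⟨b, rfl⟩, ⟨c, rfl⟩⟩ := hdiv x y t h
    have hc : c ≠ 0 := by
      rintro rfl
      exact ht (by simp)
    have hlt : c.natAbs < n := by
      rw [← hn, Int.natAbs_mul]
      have h1 : 0 < c.natAbs := Int.natAbs_pos.2 hc
      have h3 : 1 < p.natAbs := by omega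
      nlinarith
    have hp2 : p ^ 2 ≠ 0 := by positivity
    have h' : a ^ 2 + (D : ℤ) * b ^ 2 = 6 * c ^ 2 := by
      have : p ^ 2 * (a ^ 2 + (D : ℤ) * b ^ 2) = p ^ 2 * (6 * c ^ 2) := by
        linear_combination h
      exact mul_left_cancel₀ hp2 this
    exact hc (ih c.natAbs hlt a b c rfl h')

theorem rat_no_sol (D : ℕ) (hD : D % 3 = 1 ∨ D % 9 = 3 ∨ D % 8 = 3) (X Y T : ℚ)
    (h : X ^ 2 + (D : ℚ) * Y ^ 2 = 6 * T ^ 2) : T = 0 := by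
  have hX : (X.den : ℚ) ≠ 0 := by exact_mod_cast X.den_ne_zero
  have hY : (Y.den : ℚ) ≠ 0 := by exact_mod_cast Y.den_ne_zero
  have hT : (T.den : ℚ) ≠ 0 := by exact_mod_cast T.den_ne_zero
  have eX : X = X.num / X.den := (Rat.num_div_den X).symm
  have eY : Y = Y.num / Y.den := (Rat.num_div_den Y).symm
  have eT : T = T.num / T.den := (Rat.num_div_den T).symm
  have key : ((X.num * Y.den * T.den : ℤ) : ℚ) ^ 2
      + (D : ℚ) * ((Y.num * X.den * T.den : ℤ) : ℚ) ^ 2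
      = 6 * ((T.num * X.den * Y.den : ℤ) : ℚ) ^ 2 := by
    rw [eX, eY, eT] at h
    field_simp at h
    push_cast
    linear_combination h
  have key' : (X.num * Y.den * T.den : ℤ) ^ 2 + (D : ℤ) * (Y.num * X.den * T.den : ℤ) ^ 2
      = 6 * (T.num * X.den * Y.den : ℤ) ^ 2 := by
    exact_mod_cast key
  have h0 := int_descent D hD _ _ _ _ rfl key'
  have hXi : (X.den : ℤ) ≠ 0 := by exact_mod_cast X.den_ne_zero
  have hYi : (Y.den : ℤ) ≠ 0 := by exact_mod_cast Y.den_ne_zero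
  have : T.num = 0 := by
    rcases mul_eq_zero.1 h0 with h1 | h1
    · rcases mul_eq_zero.1 h1 with h2 | h2
      · exact h2
      · exact absurd h2 hXi
    · exact absurd h1 hYi
  exact Rat.num_eq_zero.1 this

/-! ### The field `ℚ(√-D)` -/

theorem sqrtD_sq (D : ℕ) : ((Real.sqrt D : ℝ) : ℂ) * ((Real.sqrt D : ℝ) : ℂ) = (D : ℂ) := by
  rw [← Complex.ofReal_mul, Real.mul_self_sqrt (Nat.cast_nonneg D)]
  simp

theorem QD_zero (D : ℕ) : (0 : ℂ) ∈ QD D := ⟨0, 0, by simp⟩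

theorem QD_add {D : ℕ} {z w : ℂ} (hz : z ∈ QD D) (hw : w ∈ QD D) : z + w ∈ QD D := by
  obtain ⟨a, b, rfl⟩ := hz
  obtain ⟨c, d, rfl⟩ := hw
  exact ⟨a + c, b + d, by push_cast; ring⟩

theorem QD_mul {D : ℕ} {z w : ℂ} (hz : z ∈ QD D) (hw : w ∈ QD D) : z * w ∈ QD D := by
  obtain ⟨a, b, rfl⟩ := hz
  obtain ⟨c, d, rfl⟩ := hw
  refine ⟨a * c - D * (b * d), a * d + b * c, ?_⟩
  push_cast
  linear_combination ((b : ℂ) * d * Complex.I * Complex.I) * sqrtD_sq D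
    + ((b : ℂ) * d * D) * Complex.I_mul_I

theorem QD_conj {D : ℕ} {z : ℂ} (hz : z ∈ QD D) : (starRingEnd ℂ) z ∈ QD D := by
  obtain ⟨a, b, rfl⟩ := hz
  refine ⟨a, -b, ?_⟩
  simp [Complex.conj_ofReal]

theorem QD_sum {D : ℕ} {ι : Type*} (s : Finset ι) (f : ι → ℂ) (hf : ∀ i, f i ∈ QD D) :
    (∑ i ∈ s, f i) ∈ QD D := by
  classical
  induction s using Finset.induction_on with
  | empty => simpa using QD_zero D
  | insert a s ha ih =>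
    rw [Finset.sum_insert ha]
    exact QD_add (hf a) ih

theorem QD_normSq {D : ℕ} {z : ℂ} (hz : z ∈ QD D) :
    ∃ a b : ℚ, ‖z‖ ^ 2 = (((a ^ 2 + (D : ℚ) * b ^ 2 : ℚ)) : ℝ) := by
  obtain ⟨a, b, rfl⟩ := hz
  refine ⟨a, b, ?_⟩
  rw [← Complex.normSq_eq_norm_sq, Complex.normSq_apply]
  have hs : Real.sqrt D * Real.sqrt D = (D : ℝ) := Real.mul_self_sqrt (Nat.cast_nonneg D)
  simp
  linear_combination ((b : ℝ) * b) * hs

/-! ### Vectors -/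

theorem normSq_of_smul (x : EuclideanSpace ℂ (Fin 6)) (c : ℂ) (u : Fin 6 → ℂ)
    (h : ∀ k, x k = c * u k) : ‖x‖ ^ 2 = ‖c‖ ^ 2 * ∑ k, ‖u k‖ ^ 2 := by
  rw [EuclideanSpace.norm_sq_eq, Finset.mul_sum]
  refine Finset.sum_congr rfl fun k _ => ?_
  rw [h k, norm_mul, mul_pow]

theorem rat_normSq {D : ℕ} (u : Fin 6 → ℂ) (hu : ∀ k, u k ∈ QD D) :
    ∃ n : ℚ, ∑ k, ‖u k‖ ^ 2 = (n : ℝ) := by
  choose a b hab using fun k => QD_normSq (hu k)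
  refine ⟨∑ k, (a k ^ 2 + (D : ℚ) * b k ^ 2), ?_⟩
  rw [Rat.cast_sum]
  exact Finset.sum_congr rfl fun k _ => hab k

theorem inner_of_smul (x y : EuclideanSpace ℂ (Fin 6)) (c d : ℂ) (u v : Fin 6 → ℂ)
    (hx : ∀ k, x k = c * u k) (hy : ∀ k, y k = d * v k) :
    ‖(inner ℂ x y : ℂ)‖ ^ 2
      = ‖c‖ ^ 2 * ‖d‖ ^ 2 * ‖∑ k, (starRingEnd ℂ) (u k) * v k‖ ^ 2 := by
  have : (inner ℂ x y : ℂ) = ((starRingEnd ℂ) c * d) * ∑ k, (starRingEnd ℂ) (u k) * v k := by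
    rw [PiLp.inner_apply, Finset.mul_sum]
    refine Finset.sum_congr rfl fun k _ => ?_
    rw [RCLike.inner_apply, hx k, hy k, map_mul]
    ring
  rw [this, norm_mul, norm_mul, RCLike.norm_conj]
  ring

theorem core (D : ℕ) (hD : D % 3 = 1 ∨ D % 9 = 3 ∨ D % 8 = 3) (x y z : EuclideanSpace ℂ (Fin 6))
    (hx : ‖x‖ = 1) (hy : ‖y‖ = 1) (hz : ‖z‖ = 1)
    (px : ProjRat D x) (py : ProjRat D y) (pz : ProjRat D z)
    (hxy : ‖(inner ℂ x y : ℂ)‖ ^ 2 = 1 / 6) (hxz : ‖(inner ℂ x z : ℂ)‖ ^ 2 = 1 / 6)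
    (hyz : ‖(inner ℂ y z : ℂ)‖ ^ 2 = 1 / 6) : False := by
  obtain ⟨c1, u, hu, hxu⟩ := px
  obtain ⟨c2, v, hv, hyv⟩ := py
  obtain ⟨c3, w, hw, hzw⟩ := pz
  obtain ⟨nu, hnu⟩ := rat_normSq u hu
  obtain ⟨nv, hnv⟩ := rat_normSq v hv
  obtain ⟨nw, hnw⟩ := rat_normSq w hw
  have ha : ‖c1‖ ^ 2 * (nu : ℝ) = 1 := by
    rw [← hnu, ← normSq_of_smul x c1 u hxu, hx]; norm_num
  have hb : ‖c2‖ ^ 2 * (nv : ℝ) = 1 := by
    rw [← hnv, ← normSq_of_smul y c2 v hyv, hy]; norm_num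
  have hc : ‖c3‖ ^ 2 * (nw : ℝ) = 1 := by
    rw [← hnw, ← normSq_of_smul z c3 w hzw, hz]; norm_num
  rw [inner_of_smul x y c1 c2 u v hxu hyv] at hxy
  rw [inner_of_smul x z c1 c3 u w hxu hzw] at hxz
  rw [inner_of_smul y z c2 c3 v w hyv hzw] at hyz
  set S1 : ℂ := ∑ k, (starRingEnd ℂ) (u k) * v k with hS1
  set S2 : ℂ := ∑ k, (starRingEnd ℂ) (u k) * w k with hS2
  set S3 : ℂ := ∑ k, (starRingEnd ℂ) (v k) * w k with hS3
  have m1 : S1 ∈ QD D := QD_sum _ _ fun k => QD_mul (QD_conj (hu k)) (hv k)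
  have m2 : S2 ∈ QD D := QD_sum _ _ fun k => QD_mul (QD_conj (hu k)) (hw k)
  have m3 : S3 ∈ QD D := QD_sum _ _ fun k => QD_mul (QD_conj (hv k)) (hw k)
  obtain ⟨X, Y, hXY⟩ := QD_normSq (QD_mul (QD_mul m1 m2) m3)
  rw [norm_mul, norm_mul, mul_pow, mul_pow] at hXY
  set α : ℝ := ‖c1‖ ^ 2
  set β : ℝ := ‖c2‖ ^ 2
  set γ : ℝ := ‖c3‖ ^ 2
  set s1 : ℝ := ‖S1‖ ^ 2
  set s2 : ℝ := ‖S2‖ ^ 2
  set s3 : ℝ := ‖S3‖ ^ 2
  have e1 : s1 = (nu : ℝ) * nv / 6 := by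
    have : s1 = (α * nu) * (β * nv) * s1 := by rw [ha, hb]; ring
    rw [this]; linear_combination ((nu : ℝ) * nv) * hxy
  have e2 : s2 = (nu : ℝ) * nw / 6 := by
    have : s2 = (α * nu) * (γ * nw) * s2 := by rw [ha, hc]; ring
    rw [this]; linear_combination ((nu : ℝ) * nw) * hxz
  have e3 : s3 = (nv : ℝ) * nw / 6 := by
    have : s3 = (β * nv) * (γ * nw) * s3 := by rw [hb, hc]; ring
    rw [this]; linear_combination ((nv : ℝ) * nw) * hyz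
  have hR : (((36 * X) ^ 2 + (D : ℚ) * (36 * Y) ^ 2 : ℚ) : ℝ)
      = ((6 * (nu * nv * nw) ^ 2 : ℚ) : ℝ) := by
    have h1 : (((36 * X) ^ 2 + (D : ℚ) * (36 * Y) ^ 2 : ℚ) : ℝ)
        = 1296 * (((X ^ 2 + (D : ℚ) * Y ^ 2 : ℚ)) : ℝ) := by
      push_cast; ring
    rw [h1, ← hXY, e1, e2, e3]
    push_cast; ring
  have hQ : (36 * X) ^ 2 + (D : ℚ) * (36 * Y) ^ 2 = 6 * (nu * nv * nw) ^ 2 := by
    exact_mod_cast hR
  have h0 := rat_no_sol D hD _ _ _ hQ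
  have h0' : (nu : ℝ) * nv * nw = 0 := by exact_mod_cast h0
  have : (1 : ℝ) = 0 := by
    calc (1 : ℝ) = (α * nu) * (β * nv) * (γ * nw) := by rw [ha, hb, hc]; ring
      _ = α * β * γ * ((nu : ℝ) * nv * nw) := by ring
      _ = 0 := by rw [h0']; ring
  exact one_ne_zero this

/-- Let `D` be congruent to `1` mod `3`, to `3` mod `9` or to `3` mod `8` (for instance `D = 1`,
the Gaussian rationals, or `D = 3`, the Eisenstein rationals). In any family of pairwise mutually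
unbiased orthonormal bases of `ℂ^6`, at most two of the bases contain a vector that is
projectively rational over `ℚ(√-D)`. -/
theorem result (D : ℕ) (hD : D % 3 = 1 ∨ D % 9 = 3 ∨ D % 8 = 3) {ι : Type*}
    (B : ι → OrthonormalBasis (Fin 6) ℂ (EuclideanSpace ℂ (Fin 6)))
    (hMU : ∀ s t, s ≠ t → Unbiased (B s) (B t))
    (r s t : ι) (hrs : r ≠ s) (hrt : r ≠ t) (hst : s ≠ t)
    (hr : ∃ i, ProjRat D (B r i)) (hs : ∃ i, ProjRat D (B s i))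
    (ht : ∃ i, ProjRat D (B t i)) : False := by
  obtain ⟨i, hi⟩ := hr
  obtain ⟨j, hj⟩ := hs
  obtain ⟨k, hk⟩ := ht
  exact core D hD (B r i) (B s j) (B t k) ((B r).orthonormal.1 i) ((B s).orthonormal.1 j)
    ((B t).orthonormal.1 k) hi hj hk (hMU r s hrs i j) (hMU r t hrt i k) (hMU s t hst j k)

end Vale.Agent.Results.P355.QuadraticFieldObstruction
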